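import Mathlib

/-! Definitions and interface statements for the construction of Ramanujan graphs by sequential
pairing of half-edges.  See `skel/P049/BLUEPRINT.md`. -/

namespace Vale.Agent.P049

open Matrix Finset

abbrev Mat (ι : Type) := Matrix ι ι ℝ

section Basic

variable {ι : Type} [Fintype ι] [DecidableEq ι]

/-! ### The update -/

noncomputable def rho (Z : Mat ι) (i j : ι) : ℝ := (1 - Z i j) ^ 2 - Z i i * Z j j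
noncomputable def t11 (Z : Mat ι) (i j : ι) : ℝ := Z j j / rho Z i j
noncomputable def t22 (Z : Mat ι) (i j : ι) : ℝ := Z i i / rho Z i j
noncomputable def t12 (Z : Mat ι) (i j : ι) : ℝ := (1 - Z i j) / rho Z i j

/-- The inverse of `J - Z₂`, where `J` is the swap and `Z₂` the block of `Z` on `i, j`. -/
noncomputable def Tm (Z : Mat ι) (i j : ι) : Matrix (Fin 2) (Fin 2) ℝ :=
  !![t11 Z i j, t12 Z i j; t12 Z i j, t22 Z i j]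

def blk (N : Mat ι) (i j : ι) : Matrix (Fin 2) (Fin 2) ℝ := !![N i i, N i j; N j i, N j j]

/-- Schur complement update when `i` and `j` are paired (rows `i, j` are set to zero). -/
noncomputable def upd (Z : Mat ι) (i j : ι) : Mat ι := fun k l =>
  if k = i ∨ k = j ∨ l = i ∨ l = j then 0 else
    Z k l + t11 Z i j * (Z k i * Z l i) + t22 Z i j * (Z k j * Z l j) +
      t12 Z i j * (Z k i * Z l j + Z k j * Z l i)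

noncomputable def trT (Z N : Mat ι) (i j : ι) : ℝ :=
  t11 Z i j * N i i + t22 Z i j * N j j + t12 Z i j * (N i j + N j i)

noncomputable def trTT (A B N N' : Mat ι) (i j : ι) : ℝ :=
  trace (Tm A i j * blk N i j * (Tm B i j * blk N' i j))

noncomputable def nu (Z : Mat ι) (i j : ι) : ℝ := |Z i j| + |Z i i * Z j j|

noncomputable def ze1 (Z : Mat ι) (i j k : ι) : ℝ := t11 Z i j * Z k i + t12 Z i j * Z k j
noncomputable def ze2 (Z : Mat ι) (i j k : ι) : ℝ := t12 Z i j * Z k i + t22 Z i j * Z k j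

/-! ### Quantities -/

def qf (Z : Mat ι) (v : ι → ℝ) : ℝ := v ⬝ᵥ Z *ᵥ v
def T1 (Z : Mat ι) : ℝ := trace Z
def T2 (Z : Mat ι) : ℝ := trace (Z * Z)
def T3 (Z : Mat ι) : ℝ := trace (Z * Z * Z)
def T4 (Z : Mat ι) : ℝ := trace (Z * Z * Z * Z)
def Mq (A B : Mat ι) : ℝ := trace (A * A * B * B)
def rr (Z : Mat ι) (k : ι) : ℝ := (Z * Z) k k
def dp (Z : Mat ι) (k : ι) : ℝ := max (rr Z k - 1) 0
def Dp (Z : Mat ι) : ℝ := ∑ k, (dp Z k ^ 2 + dp Z k ^ 4)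
def Ad (Z : Mat ι) : ℝ := ∑ k, Z k k ^ 2
def A4 (Z : Mat ι) : ℝ := ∑ k, Z k k ^ 4

/-- Euclidean norm of a vector. -/
noncomputable def vn (f : ι → ℝ) : ℝ := √(∑ i, f i ^ 2)
/-- Frobenius norm. -/
noncomputable def fn (N : Mat ι) : ℝ := √(∑ i, ∑ j, N i j ^ 2)
/-- Row norm plus column norm. -/
noncomputable def rc (N : Mat ι) (i : ι) : ℝ := vn (fun k => N i k) + vn (fun k => N k i)
def fro (K N : Mat ι) : ℝ := ∑ i, ∑ j, K i j * N i j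
/-- Weighted sum over ordered pairs. -/
def av (w f : ι → ι → ℝ) : ℝ := ∑ i, ∑ j, w i j * f i j

/-! ### Weights -/

structure Wt (w e : ι → ι → ℝ) (K : Mat ι) (μ θ kF k2 kO : ℝ) : Prop where
  θ_pos : 0 < θ
  θ_le : θ ≤ 1 / 1000
  kF_nonneg : 0 ≤ kF
  k2_nonneg : 0 ≤ k2
  kO_nonneg : 0 ≤ kO
  w_nonneg : ∀ i j, 0 ≤ w i j
  w_le : ∀ i j, w i j ≤ 1 + θ
  w_symm : ∀ i j, w i j = w j i
  ne : ∀ i j, w i j ≠ 0 → i ≠ j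
  close : ∀ i j, |w i j - (1 - μ * K i j)| ≤ 2 * e i j
  e_nonneg : ∀ i j, 0 ≤ e i j
  e_symm : ∀ i j, e i j = e j i
  K_symm : ∀ i j, K i j = K j i
  K_rows : ∀ i, ∑ j, K i j = 0
  eF : ∑ i, ∑ j, e i j ^ 2 ≤ kF ^ 2
  e2 : ∀ i, ∑ j, e i j ^ 2 ≤ k2 ^ 2
  K2 : ∀ i, ∑ j, (μ * K i j) ^ 2 ≤ k2 ^ 2
  KO : ∀ f g : ι → ℝ, |μ * ∑ i, ∑ j, K i j * (f i * g j)| ≤ kO * (vn f * vn g)

structure SideW (w e : ι → ι → ℝ) (θ : ℝ) (Z : Mat ι) : Prop where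
  nu_e : ∀ i j, nu Z i j ≤ θ * e i j
  nu_le : ∀ i j, w i j ≠ 0 → nu Z i j ≤ θ

end Basic

/-! ### Parameters -/

structure Par where
  (m sm qm b1 b1' t2 s2 b3 L D sqD sD R sR al z Mx sM sRF H β Hd μ θ ϑ kF k2 kO : ℝ)

structure Par.OK (P : Par) : Prop where
  sm_sq : P.sm ^ 2 = P.m
  qm_sq : P.qm ^ 2 = P.sm
  s2_sq : P.s2 ^ 2 = P.t2
  sqD_sq : P.sqD ^ 2 = P.D
  sD_eq : P.sD = P.sm * P.sqD
  sR_sq : P.sR ^ 2 = P.R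
  sM_sq : P.sM ^ 2 = P.Mx
  qm1 : 1 ≤ P.qm
  b11 : 1 ≤ P.b1
  b1_le : P.b1 ≤ P.b1'
  s21 : 1 ≤ P.s2
  b31 : 1 ≤ P.b3
  L1 : 1 ≤ P.L
  sqD1 : 1 ≤ P.sqD
  sR1 : 1 ≤ P.sR
  al1 : 1 ≤ P.al
  z1 : 1 ≤ P.z
  sM1 : 1 ≤ P.sM
  sRF1 : 1 ≤ P.sRF
  k21 : 1 ≤ P.k2
  kO1 : 1 ≤ P.kO
  sqD_le : P.sqD ≤ P.sm
  al_le : P.al ^ 2 ≤ P.sm
  sm_le : P.sm ≤ P.kF
  μ_pos : 0 < P.μ
  μ_le : P.μ ≤ 1
  θ_pos : 0 < P.θ
  θ_le : P.θ ≤ 1 / 1000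
  ϑ_pos : 0 < P.ϑ
  ϑ_le : P.ϑ ≤ 1
  β_nonneg : 0 ≤ P.β
  hH : P.b1 * P.β + P.b1' + P.μ ≤ P.H
  hβ : P.b1 ≤ P.μ * P.β ^ 2
  hRF : P.L ^ 4 + 2 * P.L ^ 2 * P.sD ≤ P.sRF ^ 2
  hHd : P.H * P.sD ≤ P.Hd ∨ P.b1 * P.sqD * P.sRF + P.b1' * P.sD ≤ P.Hd

def C0 : ℝ := 10 ^ 30
def C1 : ℝ := 10 ^ 20

namespace Par

variable (P : Par)

def E1 : ℝ := P.k2 * P.al * P.m + P.kF * P.L ^ 2 + P.kF ^ 2 + P.μ * P.m + P.μ * P.Mx
def Q1 : ℝ := P.al ^ 2 * P.m + P.L ^ 4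
def E2 : ℝ := P.H * P.t2 + P.μ * P.L * P.Mx + P.k2 * P.al * P.L ^ 2 * P.s2 +
  P.kF * P.L ^ 2 * P.s2 + P.k2 * P.t2 * P.sm + P.z ^ 2 * P.L ^ 4 + P.z ^ 2 * P.L ^ 2 * P.sm +
  P.al * P.L ^ 2 * P.sm + P.al ^ 2 * P.m + P.kF ^ 2
def Q2 : ℝ := P.m * P.R * P.t2 + P.al ^ 2 * P.L ^ 2 * P.m + P.L ^ 4 * P.t2 + P.z ^ 4 * P.m +
  P.R ^ 2 * P.L ^ 4 + P.kF ^ 2
noncomputable def E3 : ℝ := P.b1 ^ 2 * P.t2 * P.μ⁻¹ + P.b1' * P.m + P.μ * P.L ^ 4 +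
  P.μ * P.L ^ 2 * P.Mx + P.k2 * P.al * P.L ^ 4 + P.kF * P.L ^ 4 +
  P.k2 * P.sm * P.s2 * P.L ^ 2 + P.k2 * P.m * P.al + P.z ^ 2 * P.L ^ 5 +
  P.z ^ 2 * P.sm * P.L ^ 3 + P.z ^ 2 * P.m + P.al * P.L ^ 2 * P.m + P.al ^ 2 * P.L * P.m +
  P.al * P.sm * P.m + P.z * P.al ^ 2 * P.m + P.R * P.L ^ 4
noncomputable def EM (X : ℝ) : ℝ := P.k2 * P.al * P.L * X ^ 2 + P.kF * P.L * X ^ 2 +
  P.k2 * P.sm * P.sR * X ^ 2 + P.z ^ 2 * P.L ^ 2 * X ^ 2 + P.z ^ 2 * P.sm * X ^ 2 +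
  P.al * P.L * P.sR * X ^ 2 + P.al * P.sm * X ^ 2 + P.al ^ 2 * P.R * X ^ 2 + P.kF * P.m * X +
  P.kO * P.m * X + P.z ^ 2 * P.L ^ 2 * X * P.sm + P.al * P.L ^ 2 * X * P.sm +
  P.al ^ 2 * P.m * X + P.ϑ * P.m * X ^ 2 + P.z ^ 8 * P.R * P.m ^ 2 * P.ϑ⁻¹
noncomputable def E4 : ℝ := P.b3 ^ 2 + P.H * P.L ^ 4 + P.μ * P.L ^ 3 * P.Mx + P.EM (P.L ^ 2)
noncomputable def E5 : ℝ := P.b1 * P.Mx + P.m * P.sm * P.sM + P.H * P.Mx +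
  P.μ * P.L * P.sM * P.Mx + P.EM P.sM
noncomputable def ED : ℝ := P.Hd + P.θ * P.m * P.D + P.sD * P.D + P.H * P.D +
  P.μ * P.sqD * P.L ^ 2 * P.sR * P.sM + P.μ * P.L * P.sM * P.D +
  P.k2 * P.al * P.sqD * P.sRF + P.kF * P.sqD * P.sRF + P.k2 * P.al * P.L * P.D +
  P.kF * P.L * P.D + P.sm * P.sR * P.sD + P.sm * P.z * P.al * P.sD +
  P.sm * P.z * P.sqD * P.L ^ 2 + P.sm * P.z * P.L * P.D + P.k2 * P.sm * P.D +
  P.θ⁻¹ * P.al ^ 2 * P.R * P.sD + P.θ⁻¹ * P.L ^ 2 * P.sD + P.θ⁻¹ * P.al * P.L * P.sR * P.sD +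
  P.θ⁻¹ ^ 4 * (P.z ^ 2 * P.sRF ^ 2 + P.al ^ 2 * P.m + P.z ^ 8 * P.m + P.z ^ 4 * P.R ^ 2 * P.m +
    P.L ^ 2 * P.D + P.al ^ 2 * P.R ^ 2 * P.D + P.z ^ 8 * P.R ^ 4 * P.D + P.sD * P.D)
noncomputable def EA2 : ℝ := P.θ * P.m * P.al ^ 2 + P.k2 * P.sm * P.al ^ 2 + P.sD * P.al ^ 2 +
  P.b1' * P.al * P.sm + P.kO * P.al * P.sm + P.kF * P.al * P.sm + P.θ⁻¹ * P.m
noncomputable def EA4 : ℝ := P.θ * P.m * P.z ^ 4 + P.k2 * P.sm * P.z ^ 4 + P.sD * P.z ^ 4 +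
  P.b1' * P.z ^ 3 * P.qm + P.kO * P.z ^ 3 * P.qm + P.kF * P.z ^ 3 * P.qm +
  P.k2 * P.al * P.z ^ 3 * P.qm + P.θ⁻¹ * P.al ^ 2 * P.z ^ 2 * P.sm + P.θ⁻¹ ^ 3 * P.m

end Par

section Ctx

variable {ι : Type} [Fintype ι] [DecidableEq ι]

/-- Bounds on one of the two matrices. -/
structure Side (P : Par) (ε : ℝ) (Z : Mat ι) : Prop where
  symm : Z.IsSymm
  rows : ∀ k, ∑ l, Z k l = 1
  eps : ε = 1 ∨ ε = -1
  low : ∀ v : ι → ℝ, -(v ⬝ᵥ v) ≤ ε * qf Z v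
  card : (Fintype.card ι : ℝ) = P.m
  hb1 : ε * T1 Z ≤ P.b1
  hb1' : |T1 Z| ≤ P.b1'
  ht2 : T2 Z ≤ P.t2
  hm : T2 Z ≤ P.m
  hb3 : |T3 Z| ≤ P.b3
  hL : T4 Z ≤ P.L ^ 4
  hD : Dp Z ≤ P.D
  hR : ∀ k, rr Z k ≤ P.R
  hal : Ad Z ≤ P.al ^ 2
  hz : A4 Z ≤ P.z ^ 4

/-- Everything the drift lemmas may use. -/
structure Ctx (P : Par) (ε : ℝ) (Z Y : Mat ι) (w e : ι → ι → ℝ) : Prop where
  ok : P.OK
  sZ : Side P ε Z
  sY : Side P (-ε) Y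
  hM : Mq Z Y ≤ P.Mx
  wt : Wt w e (ε • (Z * Z - Y * Y)) P.μ P.θ P.kF P.k2 P.kO
  wZ : SideW w e P.θ Z
  wY : SideW w e P.θ Y

/-- Derivative of `p ^ 2 + p ^ 4` at the row excess. -/
def gg (Z : Mat ι) (k : ι) : ℝ := 2 * dp Z k + 4 * dp Z k ^ 3
noncomputable def db1 (Z : Mat ι) (i j k : ι) : ℝ :=
  2 * (ze1 Z i j k * (Z * Z) k i + ze2 Z i j k * (Z * Z) k j)
noncomputable def db2 (Z : Mat ι) (i j k : ι) : ℝ :=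
  dp Z i * ze1 Z i j k ^ 2 + dp Z j * ze2 Z i j k ^ 2 +
    2 * (Z * Z) i j * (ze1 Z i j k * ze2 Z i j k)
/-- Sum over `k` different from `i` and `j`. -/
def sumo (i j : ι) (f : ι → ℝ) : ℝ := ∑ k, if k = i ∨ k = j then 0 else f k

/-! ### States -/

structure St (F : Finset ι) (Z : Mat ι) : Prop where
  symm : Z.IsSymm
  supp : ∀ k l, k ∉ F → Z k l = 0
  rows : ∀ k ∈ F, ∑ l, Z k l = 1

def LowA (κ : ℝ) (Z : Mat ι) : Prop := ∀ v : ι → ℝ, -(κ * (v ⬝ᵥ v)) ≤ qf Z v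
def UpB (κ : ℝ) (F : Finset ι) (Z : Mat ι) : Prop :=
  ∀ v : ι → ℝ, ∑ k ∈ F, v k = 0 → qf Z v ≤ κ * (v ⬝ᵥ v)

/-- Round the off-diagonal entries by `r` and restore the row sums on `F`. -/
def rnd (r : ℝ → ℝ) (F : Finset ι) (Z : Mat ι) : Mat ι := fun k l =>
  if k = l then (if k ∈ F then 1 - ∑ p, (if p = k then 0 else r (Z k p)) else 0) else r (Z k l)

def form (τ : ι → ι) (Z : Mat ι) (v : ι → ℝ) : ℝ := ∑ k, v k * v (τ k) - qf Z v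

def Pos (F : Finset ι) (Z : Mat ι) (τ : ι → ι) : Prop :=
  ∀ p : ι → ℝ, (∀ k, k ∉ F → p k = 0) → (∀ k, p (τ k) = p k) → (¬ ∃ c, ∀ k ∈ F, p k = c) →
    ∃ o : ι → ℝ, (∀ k, k ∉ F → o k = 0) ∧ (∀ k, o (τ k) = -o k) ∧ 0 < form τ Z (p + o)

def Neg (F : Finset ι) (Z : Mat ι) (τ : ι → ι) : Prop :=
  ∀ o : ι → ℝ, (∀ k, k ∉ F → o k = 0) → (∀ k, o (τ k) = -o k) → o ≠ 0 →
    ∃ p : ι → ℝ, (∀ k, k ∉ F → p k = 0) ∧ (∀ k, p (τ k) = p k) ∧ form τ Z (o + p) < 0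

/-- Initial matrices; `π` sends a half-edge to its vertex. -/
noncomputable def A0 {V : Type} [DecidableEq V] (π : ι → V) (d a κ : ℝ) : Mat ι := fun k l =>
  (if π k = π l then a else 0) - (if k = l then κ else 0) + (1 - a * d + κ) / Fintype.card ι
noncomputable def B0 {V : Type} [DecidableEq V] (π : ι → V) (d a κ : ℝ) : Mat ι := fun k l =>
  -(if π k = π l then a else 0) + (if k = l then κ else 0) + (1 + a * d - κ) / Fintype.card ι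

/-- The allowed pairs: symmetric, irreflexive, few forbidden partners. -/
structure OkRel (ok : ι → ι → Prop) (F : Finset ι) (cd : ℕ) : Prop where
  symm : ∀ i j, ok i j → ok j i
  irr : ∀ i, ¬ ok i i
  few : ∀ i ∈ F, ∃ S : Finset ι, S.card ≤ cd ∧ ∀ j ∈ F, j ∉ S → ok i j

end Ctx

noncomputable def fl (G x : ℝ) : ℝ := ⌊G * x⌋ / G
noncomputable def ce (G x : ℝ) : ℝ := ⌈G * x⌉ / G

/-! ### The potential -/

@[irreducible] def eN : ℕ := 40000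
@[irreducible] def eh : ℕ := 27321
@[irreducible] def e1 : ℕ := 14686
@[irreducible] def e1' : ℕ := 18205
@[irreducible] def eS : ℕ := 27124
@[irreducible] def e3 : ℕ := 40250
@[irreducible] def e4 : ℕ := 80786
@[irreducible] def eD : ℕ := 81397
@[irreducible] def eA : ℕ := 37366
@[irreducible] def eA' : ℕ := 379
@[irreducible] def eZ : ℕ := 174
@[irreducible] def eM : ℕ := 10035
@[irreducible] def en1 : ℕ := 18103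
@[irreducible] def en2 : ℕ := 300
@[irreducible] def eC : ℕ := 320
@[irreducible] def eG : ℕ := 40

section Pot

variable {R : Type} [Field R]

def bud (e a b : ℕ) (t m : R) : R := t ^ e * m ^ a / (m + t ^ eh) ^ b
def Te (t m : R) : R := bud 0 2 1 t m
def B1 (t m : R) : R := bud e1 1 1 t m
def B1' (t m : R) : R := bud e1' 1 1 t m
def BS (t m : R) : R := bud eS 2 2 t m
def B3 (t m : R) : R := bud e3 2 2 t m
def B4 (t m : R) : R := bud e4 3 4 t m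
def BD (t m : R) : R := bud eD 1 3 t m
def BA (t m : R) : R := bud eA 1 2 t m + t ^ eA'
def BZ (t : R) : R := t ^ eZ
def BM (t m : R) : R := t ^ eM * m

/-- One side of the potential as a function of the values of the quantities. -/
def sideV [LinearOrder R] (t m ε x1 x2 x3 x4 xD xA xZ : R) : R :=
  max (ε * x1) 0 ^ 2 / B1 t m ^ 2 + x1 ^ 2 / B1' t m ^ 2 + max (x2 - Te t m) 0 ^ 2 / BS t m ^ 2 +
    (ε * x3 + x2) / B3 t m + x4 / B4 t m + xD / BD t m + xA / BA t m + xZ / BZ t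

end Pot

section Phi

variable {ι : Type} [Fintype ι] [DecidableEq ι]

noncomputable def side (t m ε : ℝ) (Z : Mat ι) : ℝ :=
  sideV t m ε (T1 Z) (T2 Z) (T3 Z) (T4 Z) (Dp Z) (Ad Z) (A4 Z)

noncomputable def Phi (t m : ℝ) (A B : Mat ι) : ℝ :=
  side t m 1 A + side t m (-1) B + Mq A B / BM t m

end Phi

end Vale.Agent.P049
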